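import Vale.Agent.P269.G1I.BAbs

/-!
# [DA] the null vector fields kill the linear part of the genus-one Virasoro coefficient
-/

namespace Vale.Agent.P269.G1.H124

open Finset.HasAntidiagonal (antidiagonal)

variable {ι β R O : Type*} [Fintype β] [DecidableEq β] [CommRing R] [Algebra ℚ R]
    [Ring O] [Algebra R O] (S : Big ι β R O)

/-- a derivation of the whole structure -/
structure DP where
  d : R →+ R
  o : O →+ O
  d_mul : ∀ f g, d (f * g) = d f * g + f * d g
  o_mul : ∀ a b, o (a * b) = o a * b + a * o b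
  o_smul : ∀ (r : R) a, o (r • a) = d r • a + r • o a
  act : ∀ a (x : β → R) b, d (S.act a x b) = S.act (o a) x b + S.act a (fun c => d (x c)) b
  str : ∀ a, d (S.str a) = S.str (o a)
  mu : o S.mu = 0

/-- the basic derivations -/
def base (i : ι) : DP S where
  d := AddMonoidHom.mk' (S.D i) (S.D_add i)
  o := AddMonoidHom.mk' (S.DO i) (S.DO_add i)
  d_mul := S.D_mul i
  o_mul := S.DO_mul i
  o_smul := S.DO_smul i
  act := S.D_act i
  str := S.D_str i
  mu := S.DO_mu i

@[simp] theorem base_d (i : ι) (f : R) : (base S i).d f = S.D i f := rfl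
@[simp] theorem base_o (i : ι) (a : O) : (base S i).o a = S.DO i a := rfl

theorem act_sum (a : O) {κ : Type*} (s : Finset κ) (x : κ → R) (v : κ → β → R) (b : β) :
    S.act a (fun c => ∑ e ∈ s, x e * v e c) b = ∑ e ∈ s, x e * S.act a (v e) b := by
  have h : (fun c => ∑ e ∈ s, x e * v e c) = ∑ e ∈ s, x e • v e := by
    funext c
    rw [Finset.sum_apply]
    rfl
  rw [h, map_sum, Finset.sum_apply]
  exact Finset.sum_congr rfl fun e _ => by rw [map_smul]; rfl

theorem sum_act (v : β → R) {κ : Type*} (s : Finset κ) (x : κ → R) (a : κ → O) (b : β) :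
    S.act (∑ e ∈ s, x e • a e) v b = ∑ e ∈ s, x e * S.act (a e) v b := by
  rw [map_sum, LinearMap.sum_apply, Finset.sum_apply]
  exact Finset.sum_congr rfl fun e _ => by rw [map_smul]; rfl

/-- linear combinations of the derivations of level zero -/
def lin (x : β → R) : DP S where
  d := AddMonoidHom.mk' (fun f => ∑ b, x b * S.D (S.i0 b) f) fun f g => by
    rw [← Finset.sum_add_distrib]
    exact Finset.sum_congr rfl fun b _ => by rw [S.D_add, mul_add]
  o := AddMonoidHom.mk' (fun a => ∑ b, x b • S.DO (S.i0 b) a) fun f g => by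
    rw [← Finset.sum_add_distrib]
    exact Finset.sum_congr rfl fun b _ => by rw [S.DO_add, smul_add]
  d_mul f g := by
    change ∑ b, x b * S.D (S.i0 b) (f * g) = (∑ b, x b * S.D (S.i0 b) f) * g +
      f * ∑ b, x b * S.D (S.i0 b) g
    rw [Finset.sum_mul, Finset.mul_sum, ← Finset.sum_add_distrib]
    exact Finset.sum_congr rfl fun b _ => by rw [S.D_mul]; ring
  o_mul a b := by
    change ∑ c, x c • S.DO (S.i0 c) (a * b) = (∑ c, x c • S.DO (S.i0 c) a) * b +
      a * ∑ c, x c • S.DO (S.i0 c) b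
    rw [Finset.sum_mul, Finset.mul_sum, ← Finset.sum_add_distrib]
    exact Finset.sum_congr rfl fun c _ => by
      rw [S.DO_mul, smul_add, smul_mul_assoc, mul_smul_comm]
  o_smul r a := by
    change ∑ c, x c • S.DO (S.i0 c) (r • a) = (∑ c, x c * S.D (S.i0 c) r) • a +
      r • ∑ c, x c • S.DO (S.i0 c) a
    rw [Finset.sum_smul, Finset.smul_sum, ← Finset.sum_add_distrib]
    exact Finset.sum_congr rfl fun c _ => by
      rw [S.DO_smul, smul_add, smul_smul, smul_smul, smul_smul, mul_comm r]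
  act a v b := by
    change ∑ c, x c * S.D (S.i0 c) (S.act a v b) = S.act (∑ c, x c • S.DO (S.i0 c) a) v b +
      S.act a (fun e => ∑ c, x c * S.D (S.i0 c) (v e)) b
    rw [sum_act, act_sum S a Finset.univ x (fun c e => S.D (S.i0 c) (v e)),
      ← Finset.sum_add_distrib]
    exact Finset.sum_congr rfl fun c _ => by rw [S.D_act, mul_add]
  str a := by
    change ∑ c, x c * S.D (S.i0 c) (S.str a) = S.str (∑ c, x c • S.DO (S.i0 c) a)
    rw [map_sum]
    exact Finset.sum_congr rfl fun c _ => by rw [S.D_str, map_smul, smul_eq_mul]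
  mu := by
    change ∑ c, x c • S.DO (S.i0 c) S.mu = 0
    exact Finset.sum_eq_zero fun c _ => by rw [S.DO_mu, smul_zero]

theorem lin_d (x : β → R) (f : R) : (lin S x).d f = ∑ b, x b * S.D (S.i0 b) f := rfl
theorem lin_o (x : β → R) (a : O) : (lin S x).o a = ∑ b, x b • S.DO (S.i0 b) a := rfl

/-- the null vector field of the variable `i` -/
def del (i : ι) : DP S where
  d := (base S i).d - (lin S (S.w i 0)).d
  o := (base S i).o - (lin S (S.w i 0)).o
  d_mul f g := by
    rw [AddMonoidHom.sub_apply, AddMonoidHom.sub_apply, AddMonoidHom.sub_apply, DP.d_mul,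
      DP.d_mul]
    ring
  o_mul a b := by
    rw [AddMonoidHom.sub_apply, AddMonoidHom.sub_apply, AddMonoidHom.sub_apply, DP.o_mul,
      DP.o_mul]
    noncomm_ring
  o_smul r a := by
    rw [AddMonoidHom.sub_apply, AddMonoidHom.sub_apply, AddMonoidHom.sub_apply, DP.o_smul,
      DP.o_smul, sub_smul, smul_sub, add_sub_add_comm]
  act a v b := by
    have h : (fun e => ((base S i).d - (lin S (S.w i 0)).d) (v e)) =
        (fun e => (base S i).d (v e)) - fun e => (lin S (S.w i 0)).d (v e) := rfl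
    rw [h, AddMonoidHom.sub_apply, AddMonoidHom.sub_apply, DP.act, DP.act, map_sub, map_sub,
      LinearMap.sub_apply, Pi.sub_apply, Pi.sub_apply]
    ring
  str a := by
    rw [AddMonoidHom.sub_apply, AddMonoidHom.sub_apply, DP.str, DP.str, map_sub]
  mu := by
    rw [AddMonoidHom.sub_apply, DP.mu, DP.mu, sub_zero]

theorem del_d (i : ι) (f : R) :
    (del S i).d f = S.D i f - ∑ b, S.w i 0 b * S.D (S.i0 b) f := rfl
theorem del_o (i : ι) (a : O) :
    (del S i).o a = S.DO i a - ∑ b, S.w i 0 b • S.DO (S.i0 b) a := rfl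

variable {S}

omit [Algebra ℚ R] in
theorem sum_e (x : β → R) : x = ∑ b, x b • (Pi.single b 1 : β → R) := by
  funext c
  rw [Finset.sum_apply, Finset.sum_eq_single c]
  · rw [Pi.smul_apply, Pi.single_eq_same, smul_eq_mul, mul_one]
  · intro b _ hb
    rw [Pi.smul_apply, Pi.single_eq_of_ne (Ne.symm hb), smul_zero]
  · intro h
    exact absurd (Finset.mem_univ c) h

theorem C_eq (x : β → R) : S.C x = ∑ b, x b • S.C (Pi.single b 1) := by
  conv_lhs => rw [sum_e x]
  rw [map_sum]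
  exact Finset.sum_congr rfl fun b _ => map_smul _ _ _

theorem G_eq (x : β → R) : S.G x = ∑ b, x b * S.G (Pi.single b 1) := by
  conv_lhs => rw [sum_e x]
  rw [map_sum]
  exact Finset.sum_congr rfl fun b _ => map_smul _ _ _

/-- derivative of `C y` -/
theorem DP.o_C (P : DP S) (y : β → R) :
    P.o (S.C y) = S.C (fun c => P.d (y c)) + ∑ b, y b • P.o (S.C (Pi.single b 1)) := by
  rw [C_eq y, map_sum, C_eq (fun c => P.d (y c)), ← Finset.sum_add_distrib]
  exact Finset.sum_congr rfl fun b _ => P.o_smul _ _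

/-- derivative of `G y` -/
theorem DP.d_G (P : DP S) (y : β → R) :
    P.d (S.G y) = S.G (fun c => P.d (y c)) + ∑ b, y b * P.d (S.G (Pi.single b 1)) := by
  rw [G_eq y, map_sum, G_eq (fun c => P.d (y c)), ← Finset.sum_add_distrib]
  exact Finset.sum_congr rfl fun b _ => P.d_mul _ _

theorem DP.act' (P : DP S) (a : O) (v : β → R) : (fun b => P.d (S.act a v b)) =
    S.act (P.o a) v + S.act a (fun c => P.d (v c)) :=
  funext fun b => P.act a v b

theorem CC_comm (x y : β → R) : S.C x * S.C y = S.C y * S.C x := by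
  rw [← S.C_mul, S.C_comm, S.C_mul]

theorem lin_U (x : β → R) :
    (lin S x).o S.U = S.C x + S.C x * S.mu - S.mu * S.C x := by
  rw [lin_o, C_eq x, Finset.sum_mul, Finset.mul_sum, ← Finset.sum_add_distrib,
    ← Finset.sum_sub_distrib]
  exact Finset.sum_congr rfl fun b _ => by
    rw [S.DO_U, S.w_zero, smul_sub, smul_add, smul_mul_assoc, mul_smul_comm]

theorem del_U (i : ι) : (del S i).o S.U = 0 := by
  change S.DO i S.U - (lin S (S.w i 0)).o S.U = 0
  rw [lin_U, S.DO_U, sub_self]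

theorem lin_g (x : β → R) (j : ℕ) (b : β) :
    (lin S x).d (S.g (j + 1) b) = S.act (S.C x) (S.g (j + 2)) b := by
  rw [lin_d, C_eq x, sum_act]
  exact Finset.sum_congr rfl fun c _ => by
    rw [S.D_g, S.w_zero, S.w_succ, Pi.zero_apply, sub_zero]

theorem del_g (i : ι) (j : ℕ) (b : β) :
    (del S i).d (S.g (j + 1) b) = - S.w i (j + 1) b := by
  change S.D i (S.g (j + 1) b) - (lin S (S.w i 0)).d (S.g (j + 1) b) = _
  rw [lin_g, S.D_g]
  ring

theorem lin_w (x : β → R) (j : ι) (l : ℕ) (b : β) :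
    (lin S x).d (S.w j l b) = S.act (S.C x) (S.w j (l + 1)) b := by
  rw [lin_d, C_eq x, sum_act]
  exact Finset.sum_congr rfl fun c _ => by rw [S.D_w, S.w_zero]

theorem del_Ce (i : ι) (b : β) :
    (del S i).o (S.C (Pi.single b 1)) = S.C (Pi.single b 1) * S.C (S.w i 1) := by
  have h1 : S.DO i (S.C (Pi.single b 1)) = S.DO (S.i0 b) (S.C (S.w i 0)) := by
    rw [← S.w_zero b]
    exact S.C_symm i (S.i0 b)
  have h2 := (base S (S.i0 b)).o_C (S.w i 0)
  have h3 : (fun c => (base S (S.i0 b)).d (S.w i 0 c)) =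
      S.act (S.C (Pi.single b 1)) (S.w i 1) := by
    funext c
    rw [base_d, S.D_w, S.w_zero]
  rw [h3, S.C_mul] at h2
  change S.DO i (S.C (Pi.single b 1)) - ∑ c, S.w i 0 c • S.DO (S.i0 c) (S.C (Pi.single b 1)) = _
  rw [h1]
  change (base S (S.i0 b)).o (S.C (S.w i 0)) - _ = _
  rw [h2, sub_eq_iff_eq_add]
  congr 1
  refine Finset.sum_congr rfl fun c _ => ?_
  congr 1
  change S.DO (S.i0 b) (S.C (Pi.single c 1)) = _
  rw [← S.w_zero b, ← S.w_zero c]
  exact S.C_symm _ _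

theorem del_C (i : ι) (y : β → R) : (del S i).o (S.C y) =
    S.C (fun c => (del S i).d (y c)) + S.C y * S.C (S.w i 1) := by
  rw [(del S i).o_C, C_eq y, Finset.sum_mul]
  congr 1
  exact Finset.sum_congr rfl fun b _ => by rw [del_Ce, smul_mul_assoc]

theorem lin_C_symm (x y : β → R) :
    (lin S x).o (S.C y) - S.C (fun c => (lin S x).d (y c)) =
      (lin S y).o (S.C x) - S.C (fun c => (lin S y).d (x c)) := by
  rw [(lin S x).o_C, (lin S y).o_C, add_sub_cancel_left, add_sub_cancel_left]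
  have h : ∀ u v : β → R, ∑ b, u b • (lin S v).o (S.C (Pi.single b 1)) =
      ∑ b, ∑ c, (u b * v c) • S.DO (S.i0 c) (S.C (Pi.single b 1)) := fun u v =>
    Finset.sum_congr rfl fun b _ => by
      rw [lin_o, Finset.smul_sum]
      exact Finset.sum_congr rfl fun c _ => smul_smul _ _ _
  rw [h, h, Finset.sum_comm]
  refine Finset.sum_congr rfl fun b _ => Finset.sum_congr rfl fun c _ => ?_
  rw [mul_comm (y c), ← S.w_zero b, ← S.w_zero c]
  rw [S.C_symm (S.i0 b) (S.i0 c)]

theorem D_Ge (i : ι) (b : β) : S.D i (S.G (Pi.single b 1)) =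
    S.D (S.i0 b) (S.G (S.w i 0)) + (1 / 24 : ℚ) • S.D (S.i0 b) (S.str (S.C (S.w i 1))) := by
  have h := S.G_symm i (S.i0 b)
  rw [S.w_zero, S.w_succ, map_zero, map_zero, smul_zero, add_zero] at h
  rw [h, S.D_add]
  congr 1
  exact map_rat_smul (base S (S.i0 b)).d _ _

theorem D_Ge_symm (b c : β) : S.D (S.i0 b) (S.G (Pi.single c 1)) =
    S.D (S.i0 c) (S.G (Pi.single b 1)) := by
  have h := D_Ge (S := S) (S.i0 b) c
  rw [S.w_zero, S.w_succ, map_zero, map_zero] at h
  rw [h]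
  have h2 : S.D (S.i0 c) 0 = 0 := map_zero (base S (S.i0 c)).d
  rw [h2, smul_zero, add_zero]

theorem del_Ge (i : ι) (b : β) : (del S i).d (S.G (Pi.single b 1)) =
    S.G (S.act (S.C (Pi.single b 1)) (S.w i 1)) +
      (1 / 24 : ℚ) • S.D (S.i0 b) (S.str (S.C (S.w i 1))) := by
  have h2 := (base S (S.i0 b)).d_G (S.w i 0)
  have h3 : (fun c => (base S (S.i0 b)).d (S.w i 0 c)) =
      S.act (S.C (Pi.single b 1)) (S.w i 1) := by
    funext c
    rw [base_d, S.D_w, S.w_zero]
  rw [h3] at h2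
  change S.D i (S.G (Pi.single b 1)) - ∑ c, S.w i 0 c * S.D (S.i0 c) (S.G (Pi.single b 1)) = _
  rw [D_Ge]
  change (base S (S.i0 b)).d (S.G (S.w i 0)) + _ - _ = _
  rw [h2]
  have h4 : ∑ c, S.w i 0 c * S.D (S.i0 c) (S.G (Pi.single b 1)) =
      ∑ c, S.w i 0 c * (base S (S.i0 b)).d (S.G (Pi.single c 1)) :=
    Finset.sum_congr rfl fun c _ => by rw [base_d, D_Ge_symm]
  rw [h4]
  ring

theorem del_G (i : ι) (y : β → R) : (del S i).d (S.G y) =
    S.G (fun c => (del S i).d (y c)) + S.G (S.act (S.C y) (S.w i 1)) +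
      (1 / 24 : ℚ) • (lin S y).d (S.str (S.C (S.w i 1))) := by
  rw [(del S i).d_G, add_assoc]
  congr 1
  have h : S.act (S.C y) (S.w i 1) = ∑ b, y b • S.act (S.C (Pi.single b 1)) (S.w i 1) := by
    funext c
    rw [C_eq y, sum_act, Finset.sum_apply]
    rfl
  rw [h, map_sum, lin_d, Finset.smul_sum, ← Finset.sum_add_distrib]
  exact Finset.sum_congr rfl fun b _ => by
    rw [del_Ge, map_smul, smul_eq_mul, mul_add, mul_smul_comm]

theorem U_eq : S.U = S.C (S.act S.U (S.g 1)) := S.C_U.symm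

theorem UC_comm (y : β → R) : S.U * S.C y = S.C y * S.U := by
  rw [U_eq]
  exact CC_comm _ _

theorem Upow_C (n : ℕ) (y : β → R) : S.U ^ n * S.C y = S.C y * S.U ^ n := by
  have h : Commute S.U (S.C y) := UC_comm y
  exact (h.pow_left n).eq

theorem C_Upow (n : ℕ) (y : β → R) : S.C (S.act (S.U ^ n) y) = S.U ^ n * S.C y := by
  induction n with
  | zero => rw [pow_zero, map_one, one_mul]; rfl
  | succ n ih =>
    rw [pow_succ', map_mul]
    change S.C (S.act S.U (S.act (S.U ^ n) y)) = _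
    have h : S.act S.U (S.act (S.U ^ n) y) =
        S.act (S.C (S.act S.U (S.g 1))) (S.act (S.U ^ n) y) := by rw [← U_eq]
    rw [h, S.C_mul, ← U_eq, ih, mul_assoc]

theorem C_Upow_g (n : ℕ) : S.C (S.act (S.U ^ n) (S.g 1)) = S.U ^ n := by
  rw [C_Upow, S.C_g, mul_one]

theorem act_C_Upow (n : ℕ) (y : β → R) :
    S.act (S.C y) (S.act (S.U ^ n) (S.g 1)) = S.act (S.U ^ n) y := by
  rw [S.C_comm, C_Upow_g]

/-- pairs of exponents -/
def Ps : ℕ → Finset (ℕ × ℕ)
  | 0 => ∅
  | k + 1 => antidiagonal k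

theorem sum_Ps {M : Type*} [AddCommMonoid M] (F : ℕ → ℕ → M) (K : ℕ) :
    (∑ e ∈ antidiagonal K, if e.1 = 0 then 0 else F (e.1 - 1) e.2) =
      ∑ e ∈ Ps K, F e.1 e.2 := by
  cases K with
  | zero => simp [Ps]
  | succ k =>
    rw [Finset.Nat.sum_antidiagonal_succ]
    simp [Ps]

theorem o_pow (P : DP S) (a : O) (K : ℕ) :
    P.o (a ^ K) = ∑ e ∈ Ps K, a ^ e.1 * P.o a * a ^ e.2 := by
  have h1 : P.o 1 = 0 := by
    have h := P.o_mul 1 1
    rw [mul_one, mul_one, one_mul] at h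
    exact left_eq_add.mp h
  cases K with
  | zero => rw [pow_zero, h1]; rfl
  | succ k =>
    change P.o (a ^ (k + 1)) = ∑ e ∈ antidiagonal k, a ^ e.1 * P.o a * a ^ e.2
    induction k with
    | zero => simp
    | succ k ih =>
      rw [pow_succ, P.o_mul, ih, Finset.Nat.sum_antidiagonal_succ', Finset.sum_mul]
      simp only [pow_zero, mul_one]
      rw [add_comm]
      congr 1
      exact Finset.sum_congr rfl fun e _ => by rw [mul_assoc, ← pow_succ]

theorem term (j l : ℕ) (y : β → R) :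
    S.str (S.U ^ j * (S.C y + S.C y * S.mu - S.mu * S.C y) * S.U ^ l) -
      S.str (S.C (S.act (S.U ^ j * (S.C y + S.C y * S.mu - S.mu * S.C y) * S.U ^ l) (S.g 1))) -
      S.str (S.C (S.act (S.U ^ j * (algebraMap R O (algebraMap ℚ R (3 / 2)) + S.mu) * S.U ^ l)
        y)) +
      S.str (S.C (S.act (S.U ^ j * (algebraMap R O (algebraMap ℚ R (3 / 2)) + S.mu) * S.U ^ l)
        (S.g 1)) * S.C y) = 0 := by
  have e1 : S.act (S.C y + S.C y * S.mu - S.mu * S.C y) (S.act (S.U ^ l) (S.g 1)) =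
      S.act (S.U ^ l) y + S.act (S.C y) (S.act S.mu (S.act (S.U ^ l) (S.g 1))) -
        S.act S.mu (S.act (S.U ^ l) y) := by
    rw [map_sub, map_add, map_mul, map_mul, LinearMap.sub_apply, LinearMap.add_apply]
    change S.act (S.C y) (S.act (S.U ^ l) (S.g 1)) +
      S.act (S.C y) (S.act S.mu (S.act (S.U ^ l) (S.g 1))) -
      S.act S.mu (S.act (S.C y) (S.act (S.U ^ l) (S.g 1))) = _
    rw [act_C_Upow]
  have e2 : ∀ t : β → R, S.act (algebraMap R O (algebraMap ℚ R (3 / 2)) + S.mu) t =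
      (algebraMap ℚ R (3 / 2)) • t + S.act S.mu t := by
    intro t
    rw [map_add, AlgHom.commutes, LinearMap.add_apply, Module.algebraMap_end_apply]
  have e3 : ∀ (a : O) (t : β → R), S.act (S.U ^ j * a * S.U ^ l) t =
      S.act (S.U ^ j) (S.act a (S.act (S.U ^ l) t)) := by
    intro a t
    rw [map_mul, map_mul]
    rfl
  rw [e3, e3, e3, C_Upow, C_Upow, C_Upow, e1, e2, e2, map_sub, map_add, map_add, map_add,
    map_smul, map_smul, C_Upow, C_Upow_g, S.C_mul]
  generalize hp : S.C (S.act S.mu (S.act (S.U ^ l) (S.g 1))) = p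
  generalize hq : S.C (S.act S.mu (S.act (S.U ^ l) y)) = q
  generalize algebraMap ℚ R (3 / 2) = r
  have hpc : p * S.C y = S.C y * p := by rw [← hp]; exact CC_comm _ _
  have hl : S.U ^ l * S.C y = S.C y * S.U ^ l := Upow_C l y
  have hj : S.U ^ j * S.C y = S.C y * S.U ^ j := Upow_C j y
  have hjl : S.U ^ j * S.U ^ l = S.U ^ l * S.U ^ j := by rw [← pow_add, ← pow_add, add_comm]
  have s1 : S.str (S.U ^ j * (S.C y * S.mu) * S.U ^ l) =
      S.str (S.U ^ j * (S.mu * S.C y) * S.U ^ l) := by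
    rw [S.str_comm, ← mul_assoc, ← mul_assoc, ← hjl]
    rw [show S.U ^ j * (S.mu * S.C y) * S.U ^ l = (S.U ^ j * S.mu) * (S.C y * S.U ^ l) by
      noncomm_ring, S.str_comm (S.U ^ j * S.mu), ← hl]
    rw [show S.U ^ l * S.C y * (S.U ^ j * S.mu) = S.U ^ l * (S.C y * S.U ^ j) * S.mu by
      noncomm_ring, ← hj, hjl]
    congr 1
    noncomm_ring
  have s2 : S.U ^ j * (S.C y + S.C y * S.mu - S.mu * S.C y) * S.U ^ l =
      S.U ^ j * (S.U ^ l * S.C y) + S.U ^ j * (S.C y * S.mu) * S.U ^ l -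
        S.U ^ j * (S.mu * S.C y) * S.U ^ l := by
    rw [hl]
    noncomm_ring
  have s3 : S.U ^ j * (r • S.U ^ l + p) * S.C y =
      r • (S.U ^ j * (S.U ^ l * S.C y)) + S.U ^ j * (S.C y * p) := by
    rw [← hpc, mul_add, add_mul, mul_smul_comm, smul_mul_assoc, mul_assoc, mul_assoc]
  rw [s2, s3, mul_sub, mul_add, mul_add, mul_smul_comm]
  simp only [map_sub, map_add]
  rw [s1]
  ring

theorem del_Upow (i : ι) (K : ℕ) : (del S i).o (S.U ^ K) = 0 := by
  rw [o_pow]
  exact Finset.sum_eq_zero fun e _ => by rw [del_U, mul_zero, zero_mul]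

theorem del_g1 (i : ι) : (fun c => (del S i).d (S.g 1 c)) = - S.w i 1 :=
  funext fun c => del_g i 0 c

theorem del_g2 (i : ι) : (fun c => (del S i).d (S.g 2 c)) = - S.w i 2 :=
  funext fun c => del_g i 1 c

theorem del_actU (i : ι) (K : ℕ) : (fun c => (del S i).d (S.act (S.U ^ K) (S.g 1) c)) =
    - S.act (S.U ^ K) (S.w i 1) := by
  rw [(del S i).act', del_Upow, map_zero, LinearMap.zero_apply, zero_add, del_g1, map_neg]

/-- the operator `3/2 + μ` -/
abbrev MM (S : Big ι β R O) : O := algebraMap R O (algebraMap ℚ R (3 / 2)) + S.mu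

theorem del_M (i : ι) : (del S i).o (MM S) = 0 := by
  have h1 : (del S i).o 1 = 0 := by
    have h := (del S i).o_mul 1 1
    rw [mul_one, mul_one, one_mul] at h
    exact left_eq_add.mp h
  have h2 : (del S i).d 1 = 0 := by
    have h := (del S i).d_mul 1 1
    rw [mul_one, mul_one, one_mul] at h
    exact left_eq_add.mp h
  have h3 : (del S i).d (algebraMap ℚ R (3 / 2)) = 0 := by
    rw [Algebra.algebraMap_eq_smul_one, map_rat_smul, h2, smul_zero]
  rw [map_add, (del S i).mu, add_zero, Algebra.algebraMap_eq_smul_one (R := R),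
    (del S i).o_smul, h1, h3, zero_smul, smul_zero, add_zero]

theorem del_actM (i : ι) (j l : ℕ) :
    (fun c => (del S i).d (S.act (S.U ^ j * MM S * S.U ^ l) (S.g 1) c)) =
      - S.act (S.U ^ j * MM S * S.U ^ l) (S.w i 1) := by
  have h : (del S i).o (S.U ^ j * MM S * S.U ^ l) = 0 := by
    rw [(del S i).o_mul, (del S i).o_mul, del_Upow, del_Upow, del_M]
    simp
  rw [(del S i).act', h, map_zero, LinearMap.zero_apply, zero_add, del_g1, map_neg]

theorem del_GX (i : ι) (K : ℕ) : (del S i).d (S.G (S.act (S.U ^ K) (S.g 1))) =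
    (1 / 24 : ℚ) • (lin S (S.act (S.U ^ K) (S.g 1))).d (S.str (S.C (S.w i 1))) := by
  rw [del_G, del_actU, C_Upow_g, map_neg, neg_add_cancel, zero_add]

theorem lin_str (i : ι) (K : ℕ) :
    (lin S (S.act (S.U ^ K) (S.g 1))).d (S.str (S.C (S.w i 1))) =
      S.str (S.U ^ K * S.C (S.w i 2)) +
      ∑ e ∈ Ps K, (S.str (S.U ^ e.1 * (S.C (S.w i 1) + S.C (S.w i 1) * S.mu -
          S.mu * S.C (S.w i 1)) * S.U ^ e.2) -
        S.str (S.C (S.act (S.U ^ e.1 * (S.C (S.w i 1) + S.C (S.w i 1) * S.mu -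
          S.mu * S.C (S.w i 1)) * S.U ^ e.2) (S.g 1)))) -
      S.str (S.U ^ K * (S.C (S.w i 1) * S.C (S.g 2))) := by
  have h := lin_C_symm (S := S) (S.act (S.U ^ K) (S.g 1)) (S.w i 1)
  have h1 : (fun c => (lin S (S.act (S.U ^ K) (S.g 1))).d (S.w i 1 c)) =
      S.act (S.U ^ K) (S.w i 2) := by
    funext c
    rw [lin_w, C_Upow_g]
  have h2 : (fun c => (lin S (S.w i 1)).d (S.act (S.U ^ K) (S.g 1) c)) =
      S.act ((lin S (S.w i 1)).o (S.U ^ K)) (S.g 1) +
        S.act (S.U ^ K) (S.act (S.C (S.w i 1)) (S.g 2)) := by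
    rw [(lin S (S.w i 1)).act']
    congr 2
    exact funext fun c => lin_g _ 0 c
  rw [h1, h2, C_Upow, C_Upow_g, o_pow, lin_U, sub_eq_iff_eq_add] at h
  rw [(lin S _).str, h]
  simp only [map_add, map_sub, map_sum, LinearMap.sum_apply, C_Upow, S.C_mul,
    Finset.sum_sub_distrib]
  ring

theorem del_str (i : ι) (K : ℕ) :
    (del S i).d (S.str (S.C ((∑ e ∈ Ps K, S.act (S.U ^ e.1 * MM S * S.U ^ e.2) (S.g 1)) +
      S.act (S.U ^ K) (S.g 2)))) =
      ∑ e ∈ Ps K, (- S.str (S.C (S.act (S.U ^ e.1 * MM S * S.U ^ e.2) (S.w i 1))) +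
        S.str (S.C (S.act (S.U ^ e.1 * MM S * S.U ^ e.2) (S.g 1)) * S.C (S.w i 1))) -
      S.str (S.U ^ K * S.C (S.w i 2)) + S.str (S.U ^ K * (S.C (S.w i 1) * S.C (S.g 2))) := by
  rw [(del S i).str, del_C]
  have h1 : (fun c => (del S i).d (((∑ e ∈ Ps K, S.act (S.U ^ e.1 * MM S * S.U ^ e.2)
      (S.g 1)) + S.act (S.U ^ K) (S.g 2)) c)) =
      - (∑ e ∈ Ps K, S.act (S.U ^ e.1 * MM S * S.U ^ e.2) (S.w i 1)) -
        S.act (S.U ^ K) (S.w i 2) := by
    have h2 : (fun c => (del S i).d (((∑ e ∈ Ps K, S.act (S.U ^ e.1 * MM S * S.U ^ e.2)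
        (S.g 1)) + S.act (S.U ^ K) (S.g 2)) c)) =
        ∑ e ∈ Ps K, (fun c => (del S i).d (S.act (S.U ^ e.1 * MM S * S.U ^ e.2) (S.g 1) c)) +
        fun c => (del S i).d (S.act (S.U ^ K) (S.g 2) c) := by
      funext c
      rw [Pi.add_apply, Pi.add_apply, Finset.sum_apply, Finset.sum_apply, map_add, map_sum]
    rw [h2]
    simp only [del_actM]
    rw [(del S i).act', del_Upow, map_zero, LinearMap.zero_apply, zero_add, del_g2, map_neg,
      Finset.sum_neg_distrib, sub_eq_add_neg]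
  rw [h1]
  simp only [map_add, map_sub, map_sum, map_neg, C_Upow, add_mul, Finset.sum_mul,
    Finset.sum_add_distrib, Finset.sum_neg_distrib]
  rw [mul_assoc, CC_comm (S.g 2)]
  ring

/-- **[DA]** -/
theorem reduce (S : Big ι β R O) (K : ℕ) (i : ι) :
    S.D i (S.zlin K) = ∑ b, S.w i 0 b * S.D (S.i0 b) (S.zlin K) := by
  rw [← sub_eq_zero, ← del_d]
  have h : S.zlin K = - (S.G (S.act (S.U ^ K) (S.g 1)) + (1 / 24 : ℚ) • S.str (S.C (
      (∑ e ∈ Ps K, S.act (S.U ^ e.1 * MM S * S.U ^ e.2) (S.g 1)) +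
        S.act (S.U ^ K) (S.g 2)))) := by
    rw [← sum_Ps (fun j l => S.act (S.U ^ j * MM S * S.U ^ l) (S.g 1)) K]
    rfl
  rw [h, map_neg, map_add, map_rat_smul, del_GX, ← smul_add, lin_str, del_str]
  have h0 : ∀ e : ℕ × ℕ, S.str (S.U ^ e.1 * (S.C (S.w i 1) + S.C (S.w i 1) * S.mu -
      S.mu * S.C (S.w i 1)) * S.U ^ e.2) -
        S.str (S.C (S.act (S.U ^ e.1 * (S.C (S.w i 1) + S.C (S.w i 1) * S.mu -
          S.mu * S.C (S.w i 1)) * S.U ^ e.2) (S.g 1))) +
      (- S.str (S.C (S.act (S.U ^ e.1 * MM S * S.U ^ e.2) (S.w i 1))) +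
        S.str (S.C (S.act (S.U ^ e.1 * MM S * S.U ^ e.2) (S.g 1)) * S.C (S.w i 1))) = 0 := by
    intro e
    have h := term (S := S) e.1 e.2 (S.w i 1)
    rw [← h]
    ring
  have h1 := Finset.sum_congr (rfl : Ps K = Ps K) fun e _ => h0 e
  rw [Finset.sum_const_zero, Finset.sum_add_distrib] at h1
  have h2 : ∀ a b c d f : R, b + f = 0 → a + b - c + (f - a + c) = 0 := by
    intro a b c d f hbf
    linear_combination hbf
  rw [h2 _ _ _ 0 _ h1, smul_zero, neg_zero]

end Vale.Agent.P269.G1.H124
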